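/-
R166 Gibbs/Defs (leaf G0).  Finite-volume trace and Gibbs functional, realised inside the representation of Def_0296.
  confs d l Lam : the (finitely many) configurations with support in Lam
  ket c         : basis vector of l^2(configurations)
  mel A c' c    : matrix element  (A e_c)(c')
  trL Lam A     : sum_{c in confs Lam} (A e_c)(c)      (= trace of P A P, P the projection onto span{e_c : supp c ⊆ Lam})
  gibbsW K β    : exp(-β K)
  gibbs Lam K β : A ↦ trL (exp(-βK) A) / trL (exp(-βK))            (a linear functional on QuasiLocal)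
PROOF TEXT for the sorries: trL_add, trL_smul: unfold trL; coercions: StarSubalgebra.coe_add / coe_smul, ContinuousLinearMap.add_apply, smul_apply,
  lp.coeFn_add, lp.coeFn_smul, Pi.add_apply, Finset.sum_add_distrib, Finset.mul_sum.
Helper lemmas: prefix `gd_`.
-/
import Claimed.Agent.R166.Loc.Basic

set_option autoImplicit false
set_option linter.unusedSectionVars false

namespace Claimed.Agent.R166

open Claims.C0296.Heisenberg
open scoped Classical

noncomputable section

variable (d ℓ : ℕ)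

/-- configurations supported in `Λ`. -/
def confs (Λ : Finset (Site d)) : Finset (Configuration d ℓ) :=
  Λ.finsupp (fun _ => Finset.univ)

/-- basis vector. -/
def ket (c : Configuration d ℓ) : SpinHilbert d ℓ := lp.single 2 c (1 : ℂ)

/-- matrix element `(A e_c)(c')`. -/
def mel (A : QuasiLocal d ℓ) (c' c : Configuration d ℓ) : ℂ :=
  ((A : SpinOperator d ℓ) (ket d ℓ c)) c'

/-- finite-volume trace. -/
def trL (Λ : Finset (Site d)) (A : QuasiLocal d ℓ) : ℂ :=
  ∑ c ∈ confs d ℓ Λ, mel d ℓ A c c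

variable {d ℓ}

theorem mem_confs {Λ : Finset (Site d)} {c : Configuration d ℓ} :
    c ∈ confs d ℓ Λ ↔ c.support ⊆ Λ := by
  simp [confs, Finset.mem_finsupp_iff]

theorem trL_add (Λ : Finset (Site d)) (A B : QuasiLocal d ℓ) :
    trL d ℓ Λ (A + B) = trL d ℓ Λ A + trL d ℓ Λ B := by
  unfold trL
  rw [← Finset.sum_add_distrib]
  refine Finset.sum_congr rfl (fun c _ => ?_)
  unfold mel
  have h : ((A + B : QuasiLocal d ℓ) : SpinOperator d ℓ) = (A : SpinOperator d ℓ) + (B : SpinOperator d ℓ) := rfl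
  rw [h, add_apply, lp.coeFn_add, Pi.add_apply]

theorem trL_smul (Λ : Finset (Site d)) (c : ℂ) (A : QuasiLocal d ℓ) :
    trL d ℓ Λ (c • A) = c * trL d ℓ Λ A := by
  unfold trL
  rw [Finset.mul_sum]
  refine Finset.sum_congr rfl (fun c' _ => ?_)
  unfold mel
  have h : ((c • A : QuasiLocal d ℓ) : SpinOperator d ℓ) = c • (A : SpinOperator d ℓ) := rfl
  rw [h, smul_apply, lp.coeFn_smul, Pi.smul_apply,
    smul_eq_mul]

/-- Gibbs weight. -/
def gibbsW (K : QuasiLocal d ℓ) (β : ℝ) : QuasiLocal d ℓ := NormedSpace.exp ((-(β : ℂ)) • K)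

variable (d ℓ)

/-- finite-volume Gibbs functional. -/
def gibbs (Λ : Finset (Site d)) (K : QuasiLocal d ℓ) (β : ℝ) : QuasiLocal d ℓ →ₗ[ℂ] ℂ where
  toFun A := trL d ℓ Λ (gibbsW K β * A) / trL d ℓ Λ (gibbsW K β)
  map_add' A B := by rw [mul_add, trL_add, add_div]
  map_smul' c A := by rw [mul_smul_comm, trL_smul, RingHom.id_apply, smul_eq_mul, mul_div_assoc]

variable {d ℓ}

theorem gibbs_apply (Λ : Finset (Site d)) (K : QuasiLocal d ℓ) (β : ℝ) (A : QuasiLocal d ℓ) :
    gibbs d ℓ Λ K β A = trL d ℓ Λ (gibbsW K β * A) / trL d ℓ Λ (gibbsW K β) := rfl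

end

end Claimed.Agent.R166
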