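/-
R166 Gibbs/Trace (leaves G3, G4).  Cyclicity of the finite-volume trace, and its expression by inner products.
PROOF TEXT.
 G3 trL_comm.  P = projL Λ, c ∈ confs Λ.
   (A B e_c)(c) = (P (A (B e_c)))(c) [l2Projection_apply', c ∈ confs] = (A (P (B e_c)))(c) [hA] = ∑_{c'∈confs} (B e_c)(c') (A e_{c'})(c)  [projL_apply_eq_sum, map_sum, map_smul].
   (B A e_c)(c):  A e_c = A (P e_c) = P (A e_c) = ∑_{c'∈confs} (A e_c)(c') e_{c'}  [projL_ket, hA, projL_apply_eq_sum],  so = ∑_{c'} (A e_c)(c') (B e_{c'})(c).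
   Sum over c ∈ confs and exchange the names (Finset.sum_comm), mul_comm.
 G4 mel_star_mul:  (star A * B e_c)(c') = ⟪e_{c'}, A^* B e_c⟫ = ⟪A e_{c'}, B e_c⟫:   lp.inner_single_left (⟪lp.single 2 i a, f⟫ = ⟪a, f i⟫), inner on ℂ: conj 1 * z,
   ContinuousLinearMap.star_eq_adjoint, ContinuousLinearMap.adjoint_inner_right.  (StarSubalgebra.coe_star, coe_mul.)
   trL_star_mul_self: mel_star_mul with A = B, c = c', inner_self_eq_norm_sq_to_K.
Helper lemmas: prefix `tr_`.
-/
import Claimed.Agent.R166.Gibbs.Pres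

set_option autoImplicit false
set_option linter.unusedSectionVars false

namespace Claimed.Agent.R166

open Claims.C0296.Heisenberg
open scoped Classical InnerProductSpace

noncomputable section

variable {d ℓ : ℕ}

theorem tr_sum_apply (s : Finset (Configuration d ℓ)) (f : Configuration d ℓ → SpinHilbert d ℓ)
    (c : Configuration d ℓ) : (∑ c' ∈ s, f c') c = ∑ c' ∈ s, f c' c := by
  induction s using Finset.induction_on with
  | empty => simp
  | insert a s ha ih => rw [Finset.sum_insert ha, Finset.sum_insert ha, lp.coeFn_add, Pi.add_apply, ih]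

theorem tr_mel_mul_left {Λ : Finset (Site d)} {A : QuasiLocal d ℓ} (hA : Pres Λ A)
    (B : QuasiLocal d ℓ) {c : Configuration d ℓ} (hc : c ∈ confs d ℓ Λ) :
    mel d ℓ (A * B) c c = ∑ c' ∈ confs d ℓ Λ, mel d ℓ B c' c * mel d ℓ A c c' := by
  have h1 : mel d ℓ (A * B) c c
      = (projL d ℓ Λ ((A : SpinOperator d ℓ) ((B : SpinOperator d ℓ) (ket d ℓ c)))) c := by
    rw [projL, l2Projection_apply', if_pos hc]
    rfl
  have h2 : projL d ℓ Λ ((A : SpinOperator d ℓ) ((B : SpinOperator d ℓ) (ket d ℓ c)))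
      = (A : SpinOperator d ℓ) (projL d ℓ Λ ((B : SpinOperator d ℓ) (ket d ℓ c))) := by
    have := congrArg (fun T : SpinOperator d ℓ => T ((B : SpinOperator d ℓ) (ket d ℓ c))) hA
    exact this.symm
  rw [h1, h2, projL_apply_eq_sum, map_sum, tr_sum_apply]
  refine Finset.sum_congr rfl fun c' _ => ?_
  rw [map_smul, lp.coeFn_smul, Pi.smul_apply, smul_eq_mul]
  rfl

theorem tr_mel_mul_right {Λ : Finset (Site d)} {A : QuasiLocal d ℓ} (hA : Pres Λ A)
    (B : QuasiLocal d ℓ) {c : Configuration d ℓ} (hc : c ∈ confs d ℓ Λ) :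
    mel d ℓ (B * A) c c = ∑ c' ∈ confs d ℓ Λ, mel d ℓ A c' c * mel d ℓ B c c' := by
  have h2 : (A : SpinOperator d ℓ) (ket d ℓ c)
      = projL d ℓ Λ ((A : SpinOperator d ℓ) (ket d ℓ c)) := by
    have := congrArg (fun T : SpinOperator d ℓ => T (ket d ℓ c)) hA
    have h3 : (A : SpinOperator d ℓ) (projL d ℓ Λ (ket d ℓ c))
        = projL d ℓ Λ ((A : SpinOperator d ℓ) (ket d ℓ c)) := this
    rw [projL_ket hc] at h3
    exact h3
  have h1 : mel d ℓ (B * A) c c
      = ((B : SpinOperator d ℓ) ((A : SpinOperator d ℓ) (ket d ℓ c))) c := rfl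
  rw [h1, h2, projL_apply_eq_sum, map_sum, tr_sum_apply]
  refine Finset.sum_congr rfl fun c' _ => ?_
  rw [map_smul, lp.coeFn_smul, Pi.smul_apply, smul_eq_mul]
  rfl

theorem trL_comm {Λ : Finset (Site d)} {A : QuasiLocal d ℓ} (hA : Pres Λ A) (B : QuasiLocal d ℓ) :
    trL d ℓ Λ (A * B) = trL d ℓ Λ (B * A) := by
  unfold trL
  rw [Finset.sum_congr rfl fun c hc => tr_mel_mul_left hA B hc,
    Finset.sum_congr rfl fun c hc => tr_mel_mul_right hA B hc, Finset.sum_comm]
  refine Finset.sum_congr rfl fun c _ => Finset.sum_congr rfl fun c' _ => ?_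
  rw [mul_comm]

theorem mel_star_mul (A B : QuasiLocal d ℓ) (c' c : Configuration d ℓ) :
    mel d ℓ (star A * B) c' c =
      ⟪(A : SpinOperator d ℓ) (ket d ℓ c'), (B : SpinOperator d ℓ) (ket d ℓ c)⟫_ℂ := by
  have h1 : ∀ f : SpinHilbert d ℓ, f c' = ⟪ket d ℓ c', f⟫_ℂ := by
    intro f
    unfold ket
    rw [lp.inner_single_left]
    simp
  unfold mel
  have h2 : ((star A * B : QuasiLocal d ℓ) : SpinOperator d ℓ) (ket d ℓ c)
      = (ContinuousLinearMap.adjoint (A : SpinOperator d ℓ)) ((B : SpinOperator d ℓ) (ket d ℓ c)) := rfl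
  rw [h1, h2, ContinuousLinearMap.adjoint_inner_right]

theorem trL_star_mul_self (Λ : Finset (Site d)) (A : QuasiLocal d ℓ) :
    trL d ℓ Λ (star A * A) =
      ((∑ c ∈ confs d ℓ Λ, ‖(A : SpinOperator d ℓ) (ket d ℓ c)‖ ^ 2 : ℝ) : ℂ) := by
  unfold trL
  rw [Complex.ofReal_sum]
  refine Finset.sum_congr rfl (fun c _ => ?_)
  rw [mel_star_mul, inner_self_eq_norm_sq_to_K]
  simp

end

end Claimed.Agent.R166
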