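/-
R166 Gibbs/KMS (leaf G7).  Finite-volume KMS identity at complex times.
PROOF TEXT.  ρ = gibbsW K β = exp(-β K), ρ' = exp(β K), ρ' ρ = 1 (← exp_add_of_commute, neg_smul, neg_add_cancel / add_neg_cancel, exp_zero), X = conjExp K z B.
   conjExp K (z + Iβ) B = ρ X ρ'   (conjExp_add_I_mul).
   trL (ρ * (A * (ρ X ρ'))) = trL ((ρ A ρ X) * ρ') = trL (ρ' * (ρ A ρ X)) [trL_comm with Pres ρ' (pres_exp_smul), used right-to-left] = trL (A * (ρ X)) [ρ' ρ = 1]
     = trL ((ρ X) * A) [trL_comm hA] = trL (ρ * (X * A)).     Then divide by trL ρ (gibbs_apply).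
Helper lemmas: prefix `gk_`.
-/
import Claimed.Agent.R166.Gibbs.Trace
import Claimed.Agent.R166.Abs.Group

set_option autoImplicit false
set_option linter.unusedSectionVars false

namespace Claimed.Agent.R166

open Claims.C0296.Heisenberg
open scoped Classical

noncomputable section

variable {d ℓ : ℕ}

theorem gibbs_kms {Λ : Finset (Site d)} {K : QuasiLocal d ℓ} (hP : Pres Λ K) (β : ℝ)
    {A : QuasiLocal d ℓ} (hA : Pres Λ A) (B : QuasiLocal d ℓ) (z : ℂ) :
    gibbs d ℓ Λ K β (A * conjExp K (z + Complex.I * β) B) =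
      gibbs d ℓ Λ K β (conjExp K z B * A) := by
  rw [gibbs_apply, gibbs_apply]
  congr 1
  rw [conjExp_add_I_mul]
  set X := conjExp K z B with hX
  have hρ : gibbsW K β = NormedSpace.exp ((-(β : ℂ)) • K) := rfl
  rw [← hρ]
  set ρ := gibbsW K β with hρ2
  set ρ' := NormedSpace.exp ((β : ℂ) • K) with hρ'
  have hinv : ρ' * ρ = 1 := by
    have h := grp_exp_neg_mul K (-(β : ℂ))
    rw [neg_neg] at h
    exact h
  have hPρ' : Pres Λ ρ' := pres_exp_smul (β : ℂ) hP
  calc trL d ℓ Λ (ρ * (A * (ρ * X * ρ')))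
      = trL d ℓ Λ ((ρ * A * ρ * X) * ρ') := by simp only [mul_assoc]
    _ = trL d ℓ Λ (ρ' * (ρ * A * ρ * X)) := (trL_comm hPρ' _).symm
    _ = trL d ℓ Λ ((ρ' * ρ) * (A * (ρ * X))) := by simp only [mul_assoc]
    _ = trL d ℓ Λ (A * (ρ * X)) := by rw [hinv, one_mul]
    _ = trL d ℓ Λ ((ρ * X) * A) := trL_comm hA _
    _ = trL d ℓ Λ (ρ * (X * A)) := by rw [mul_assoc]

end

end Claimed.Agent.R166
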