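/-
R166 Gibbs/Pres (leaves G1, G2).  `Pres Lam A`: the operator A commutes with the projection projL Lam onto span{e_c : supp c ⊆ Lam}.
PROOF TEXT.
 G1: pres_mul, pres_one, pres_smul, pres_add: two-line algebra (mul_assoc, rewriting with the hypotheses; coercions StarSubalgebra.coe_mul etc.).
   pres_exp_smul:  {A : QuasiLocal | Pres Λ A} is a closed subalgebra.  Route: exp (c • K) = ∑' n, (n!)⁻¹ • (c • K)^n (NormedSpace.exp_series_hasSum_exp' (𝕂 := ℂ));
     every partial sum is Pres (induction: pres_pow), the set {A | ↑A * P = P * ↑A} is closed (isClosed_eq, continuity of Subtype.val, mul const),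
     IsClosed.mem_of_tendsto with HasSum.tendsto_sum_nat.   (Or NormedSpace.exp_mem with a closed Subalgebra.)
 G2: pres_of_mem_Loc:  StarAlgebra.adjoin_induction (or: adjoin_le into the star subalgebra (StarSubalgebra.centralizer ..).comap): generators:
     matrixUnit x a b (x ∈ Λ) commutes with projL Λ:  ext v c; matrixUnit_apply, l2Projection_apply';  c ∈ confs Λ ↔ c.update x b ∈ confs Λ for x ∈ Λ
     (mem_confs, Finsupp.support_update_subset.. : support (c.update x b) ⊆ insert x c.support, and c = (c.update x b).update x (c x)).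
     star: needs star (projL Λ) = projL Λ (projL_selfAdjoint: ContinuousLinearMap.star_eq_adjoint, eq_adjoint_iff, lp.inner_eq_tsum; termwise by cases).
   projL_apply_eq_sum: ext c; l2Projection_apply'; evaluate the finite sum of lp.single's (lp.single_apply, Finset.sum_ite_eq).
   projL_ket: special case.
Helper lemmas: prefix `pr_`.
-/
import Claimed.Agent.R166.Gibbs.Defs

set_option autoImplicit false
set_option linter.unusedSectionVars false

namespace Claimed.Agent.R166

open Claims.C0296.Heisenberg
open scoped Classical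

noncomputable section

variable (d ℓ : ℕ)

/-- projection onto the configurations supported in `Λ`. -/
def projL (Λ : Finset (Site d)) : SpinOperator d ℓ :=
  l2Projection (fun c : Configuration d ℓ => c ∈ confs d ℓ Λ)

variable {d ℓ}

/-- `A` commutes with `projL Λ`. -/
def Pres (Λ : Finset (Site d)) (A : QuasiLocal d ℓ) : Prop :=
  (A : SpinOperator d ℓ) * projL d ℓ Λ = projL d ℓ Λ * (A : SpinOperator d ℓ)

theorem pres_one (Λ : Finset (Site d)) : Pres Λ (1 : QuasiLocal d ℓ) := by
  unfold Pres
  rw [OneMemClass.coe_one, one_mul, mul_one]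

theorem pres_mul {Λ : Finset (Site d)} {A B : QuasiLocal d ℓ} (hA : Pres Λ A) (hB : Pres Λ B) :
    Pres Λ (A * B) := by
  unfold Pres at *
  rw [MulMemClass.coe_mul, mul_assoc, hB, ← mul_assoc, hA, mul_assoc]

theorem pres_add {Λ : Finset (Site d)} {A B : QuasiLocal d ℓ} (hA : Pres Λ A) (hB : Pres Λ B) :
    Pres Λ (A + B) := by
  unfold Pres at *
  rw [AddMemClass.coe_add, add_mul, mul_add, hA, hB]

theorem pres_smul {Λ : Finset (Site d)} (c : ℂ) {A : QuasiLocal d ℓ} (hA : Pres Λ A) :
    Pres Λ (c • A) := by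
  unfold Pres at *
  rw [SetLike.val_smul, smul_mul_assoc, mul_smul_comm, hA]

theorem pr_pres_pow {Λ : Finset (Site d)} {A : QuasiLocal d ℓ} (hA : Pres Λ A) (n : ℕ) :
    Pres Λ (A ^ n) := by
  induction n with
  | zero => rw [pow_zero]; exact pres_one Λ
  | succ n ih => rw [pow_succ]; exact pres_mul ih hA

theorem pr_pres_zero (Λ : Finset (Site d)) : Pres Λ (0 : QuasiLocal d ℓ) := by
  unfold Pres
  rw [ZeroMemClass.coe_zero, zero_mul, mul_zero]

theorem pr_pres_sum {Λ : Finset (Site d)} {ι : Type} (s : Finset ι) (f : ι → QuasiLocal d ℓ)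
    (hf : ∀ i ∈ s, Pres Λ (f i)) : Pres Λ (∑ i ∈ s, f i) := by
  induction s using Finset.induction_on with
  | empty => rw [Finset.sum_empty]; exact pr_pres_zero Λ
  | insert a s ha ih =>
    rw [Finset.sum_insert ha]
    exact pres_add (hf a (Finset.mem_insert_self a s))
      (ih (fun i hi => hf i (Finset.mem_insert_of_mem hi)))

theorem pr_isClosed_pres (Λ : Finset (Site d)) : IsClosed {A : QuasiLocal d ℓ | Pres Λ A} := by
  unfold Pres
  exact isClosed_eq (continuous_subtype_val.mul continuous_const)
    (continuous_const.mul continuous_subtype_val)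

theorem pres_exp_smul {Λ : Finset (Site d)} (c : ℂ) {K : QuasiLocal d ℓ} (hK : Pres Λ K) :
    Pres Λ (NormedSpace.exp (c • K)) := by
  have h1 := (NormedSpace.exp_series_hasSum_exp' (𝕂 := ℂ) (c • K)).tendsto_sum_nat
  refine (pr_isClosed_pres Λ).mem_of_tendsto h1 (Filter.Eventually.of_forall (fun n => ?_))
  exact pr_pres_sum _ _ (fun i _ => pres_smul _ (pr_pres_pow (pres_smul c hK) i))

theorem projL_selfAdjoint (Λ : Finset (Site d)) : star (projL d ℓ Λ) = projL d ℓ Λ := by
  rw [ContinuousLinearMap.star_eq_adjoint]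
  symm
  rw [ContinuousLinearMap.eq_adjoint_iff]
  intro v w
  rw [lp.inner_eq_tsum, lp.inner_eq_tsum]
  apply tsum_congr
  intro c
  simp only [projL, l2Projection_apply']
  split_ifs <;> simp

theorem pr_update_mem {Λ : Finset (Site d)} {x : Site d} (hx : x ∈ Λ) (c : Configuration d ℓ)
    (b : Level ℓ) : c.update x b ∈ confs d ℓ Λ ↔ c ∈ confs d ℓ Λ := by
  simp only [mem_confs]
  constructor
  · intro h y hy
    by_cases hyx : y = x
    · subst hyx; exact hx
    · apply h
      rw [Finsupp.mem_support_iff] at hy ⊢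
      simpa [Finsupp.update_apply, hyx] using hy
  · intro h y hy
    by_cases hyx : y = x
    · subst hyx; exact hx
    · apply h
      rw [Finsupp.mem_support_iff] at hy ⊢
      simpa [Finsupp.update_apply, hyx] using hy

theorem pr_matrixUnit_comm {Λ : Finset (Site d)} {x : Site d} (hx : x ∈ Λ) (a b : Level ℓ) :
    matrixUnit d ℓ x a b * projL d ℓ Λ = projL d ℓ Λ * matrixUnit d ℓ x a b := by
  ext v c
  simp only [ContinuousLinearMap.mul_apply, matrixUnit_apply, projL, l2Projection_apply',
    pr_update_mem hx]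
  by_cases h1 : c x = a <;> by_cases h2 : c ∈ confs d ℓ Λ <;> simp [h1, h2]

theorem pr_pres_star {Λ : Finset (Site d)} {A : QuasiLocal d ℓ} (hA : Pres Λ A) :
    Pres Λ (star A) := by
  unfold Pres at hA ⊢
  have h := congrArg star hA
  rw [star_mul, star_mul, projL_selfAdjoint] at h
  rw [StarMemClass.coe_star]
  exact h.symm

theorem pres_of_mem_Loc {Λ : Finset (Site d)} {A : QuasiLocal d ℓ} (hA : A ∈ Loc d ℓ Λ) :
    Pres Λ A := by
  unfold Loc at hA
  induction hA using StarAlgebra.adjoin_induction with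
  | mem y hy =>
    obtain ⟨x, hx, a, b, rfl⟩ := hy
    exact pr_matrixUnit_comm hx a b
  | algebraMap r =>
    rw [Algebra.algebraMap_eq_smul_one]
    exact pres_smul r (pres_one Λ)
  | add y z _ _ hy hz => exact pres_add hy hz
  | mul y z _ _ hy hz => exact pres_mul hy hz
  | star y _ hy => exact pr_pres_star hy

theorem projL_apply_eq_sum (Λ : Finset (Site d)) (v : SpinHilbert d ℓ) :
    projL d ℓ Λ v = ∑ c ∈ confs d ℓ Λ, v c • ket d ℓ c := by
  ext c
  rw [lp.coeFn_sum, Finset.sum_apply]
  simp only [projL, l2Projection_apply', lp.coeFn_smul, Pi.smul_apply, ket, lp.single_apply,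
    smul_eq_mul, Pi.single_apply, mul_ite, mul_one, mul_zero]
  rw [Finset.sum_ite_eq]

theorem projL_ket {Λ : Finset (Site d)} {c : Configuration d ℓ} (hc : c ∈ confs d ℓ Λ) :
    projL d ℓ Λ (ket d ℓ c) = ket d ℓ c := by
  ext c'
  simp only [projL, l2Projection_apply', ket, lp.single_apply, Pi.single_apply]
  by_cases h : c' = c
  · subst h; simp [hc]
  · simp [h]

end

end Claimed.Agent.R166
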