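/-
R166 Gibbs/State (leaves G5, G6).  The Gibbs functional is a state: normalised, positive, contractive.   K selfadjoint, Pres Λ K.
PROOF TEXT.  σ := halfW K β = exp(-(β/2) K).
 G5: halfW_selfAdjoint: IsSelfAdjoint.exp (the scalar is real: IsSelfAdjoint.smul / star_smul, Complex.conj_ofReal).
   halfW_mul_self: σ * σ = gibbsW K β: ← NormedSpace.exp_add_of_commute (Commute.refl _), ← add_smul, and -(β/2) + -(β/2) = -β (push_cast; ring).
   trL_gibbsW_mul: trL (σ σ A) = trL (σ * (σ * A)) = trL ((σ * A) * σ) (trL_comm, pres_exp_smul) = trL (star σ * (A * σ)) = ∑_c ⟪σ e_c, A σ e_c⟫ (mel_star_mul).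
   trL_gibbsW_pos: A = 1: Z = ∑_c ‖σ e_c‖^2; confs Λ ∋ 0 (mem_confs, Finsupp.support_zero); σ e_0 ≠ 0 because exp((β/2)K) σ = 1 and e_0 ≠ 0
      (ket 0 evaluated at 0 is 1: lp.single_apply_self).  Finset.sum_pos' / single_le_sum.
 G6: gibbs_one: mul_one, div_self.
   gibbs_pos: trL (ρ * (star A * A)) = ∑_c ⟪σ e_c, A^* A σ e_c⟫ = ∑_c ‖A σ e_c‖^2 ≥ 0 (real), divided by Z > 0 real.
      (or: ρ star A A = σ σ star A A, cyclicity: trL (star (A σ) * (A σ)), trL_star_mul_self.)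
   norm_gibbs_le: |∑_c ⟪σ e_c, A σ e_c⟫| ≤ ∑_c ‖σ e_c‖ ‖A‖ ‖σ e_c‖ = ‖A‖ Z  (norm_inner_le_norm, ContinuousLinearMap.le_opNorm; ‖(A : SpinOperator)‖ = ‖A‖ by rfl).
Helper lemmas: prefix `gs_`.
-/
import Claimed.Agent.R166.Gibbs.Trace

set_option autoImplicit false
set_option linter.unusedSectionVars false

namespace Claimed.Agent.R166

open Claims.C0296.Heisenberg
open scoped Classical InnerProductSpace

noncomputable section

variable {d ℓ : ℕ}

/-- square root of the Gibbs weight. -/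
def halfW (K : QuasiLocal d ℓ) (β : ℝ) : QuasiLocal d ℓ :=
  NormedSpace.exp ((-((β / 2 : ℝ) : ℂ)) • K)

theorem halfW_selfAdjoint {K : QuasiLocal d ℓ} (hK : IsSelfAdjoint K) (β : ℝ) :
    IsSelfAdjoint (halfW K β) := by
  unfold halfW
  apply IsSelfAdjoint.exp
  apply IsSelfAdjoint.smul _ hK
  rw [isSelfAdjoint_iff]
  simp

theorem halfW_mul_self (K : QuasiLocal d ℓ) (β : ℝ) : halfW K β * halfW K β = gibbsW K β := by
  let +nondep : NormedAlgebra ℚ (QuasiLocal d ℓ) := .restrictScalars ℚ ℂ (QuasiLocal d ℓ)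
  unfold halfW gibbsW
  rw [← NormedSpace.exp_add_of_commute (Commute.refl _), ← add_smul]
  congr 2
  push_cast
  ring

theorem trL_gibbsW_mul {Λ : Finset (Site d)} {K : QuasiLocal d ℓ} (hK : IsSelfAdjoint K)
    (hP : Pres Λ K) (β : ℝ) (A : QuasiLocal d ℓ) :
    trL d ℓ Λ (gibbsW K β * A) = ∑ c ∈ confs d ℓ Λ,
      ⟪(halfW K β : SpinOperator d ℓ) (ket d ℓ c),
        (A : SpinOperator d ℓ) ((halfW K β : SpinOperator d ℓ) (ket d ℓ c))⟫_ℂ := by
  have hσ : star (halfW K β) = halfW K β := halfW_selfAdjoint hK β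
  have hPσ : Pres Λ (halfW K β) := pres_exp_smul _ hP
  have h1 : gibbsW K β * A = halfW K β * (halfW K β * A) := by
    rw [← halfW_mul_self, mul_assoc]
  have h2 : halfW K β * A * halfW K β = star (halfW K β) * (A * halfW K β) := by
    rw [hσ, mul_assoc]
  rw [h1, trL_comm hPσ, h2, trL]
  refine Finset.sum_congr rfl (fun c _ => ?_)
  rw [mel_star_mul]
  rfl

theorem gs_ket_ne_zero (c : Configuration d ℓ) : ket d ℓ c ≠ 0 := by
  intro h
  have h1 : (ket d ℓ c) c = 1 := by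
    unfold ket
    exact lp.single_apply_self (E := fun _ : Configuration d ℓ => ℂ) 2 c (1 : ℂ)
  rw [h] at h1
  simp at h1

theorem gs_halfW_ket_ne_zero (K : QuasiLocal d ℓ) (β : ℝ) (c : Configuration d ℓ) :
    (halfW K β : SpinOperator d ℓ) (ket d ℓ c) ≠ 0 := by
  intro h
  let +nondep : NormedAlgebra ℚ (QuasiLocal d ℓ) := .restrictScalars ℚ ℂ (QuasiLocal d ℓ)
  have hu : IsUnit (halfW K β) := NormedSpace.isUnit_exp _
  obtain ⟨u, hu'⟩ := hu
  have h1 : (↑u⁻¹ : QuasiLocal d ℓ) * halfW K β = 1 := by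
    rw [← hu']; exact u.inv_mul
  have h2 : (((↑u⁻¹ : QuasiLocal d ℓ) * halfW K β : QuasiLocal d ℓ) : SpinOperator d ℓ) (ket d ℓ c)
      = ket d ℓ c := by
    rw [h1]; rfl
  have h3 : (((↑u⁻¹ : QuasiLocal d ℓ) * halfW K β : QuasiLocal d ℓ) : SpinOperator d ℓ) (ket d ℓ c)
      = ((↑u⁻¹ : QuasiLocal d ℓ) : SpinOperator d ℓ) ((halfW K β : SpinOperator d ℓ) (ket d ℓ c)) := rfl
  rw [h3, h, map_zero] at h2
  exact gs_ket_ne_zero c h2.symm

theorem trL_gibbsW_pos {Λ : Finset (Site d)} {K : QuasiLocal d ℓ} (hK : IsSelfAdjoint K)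
    (hP : Pres Λ K) (β : ℝ) :
    0 < ∑ c ∈ confs d ℓ Λ, ‖(halfW K β : SpinOperator d ℓ) (ket d ℓ c)‖ ^ 2 ∧
    trL d ℓ Λ (gibbsW K β) =
      ((∑ c ∈ confs d ℓ Λ, ‖(halfW K β : SpinOperator d ℓ) (ket d ℓ c)‖ ^ 2 : ℝ) : ℂ) := by
  have hσ : star (halfW K β) = halfW K β := halfW_selfAdjoint hK β
  constructor
  · have h0 : (0 : Configuration d ℓ) ∈ confs d ℓ Λ := by
      rw [mem_confs]; simp
    have hne : (halfW K β : SpinOperator d ℓ) (ket d ℓ 0) ≠ 0 := gs_halfW_ket_ne_zero K β 0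
    have hpos : 0 < ‖(halfW K β : SpinOperator d ℓ) (ket d ℓ 0)‖ ^ 2 :=
      pow_pos (norm_pos_iff.mpr hne) 2
    exact Finset.sum_pos' (fun c _ => by positivity) ⟨0, h0, hpos⟩
  · have h1 : gibbsW K β = star (halfW K β) * halfW K β := by
      rw [hσ, halfW_mul_self]
    rw [h1, trL_star_mul_self]

theorem gibbs_one {Λ : Finset (Site d)} {K : QuasiLocal d ℓ} (hK : IsSelfAdjoint K)
    (hP : Pres Λ K) (β : ℝ) : gibbs d ℓ Λ K β 1 = 1 := by
  obtain ⟨hpos, hZ⟩ := trL_gibbsW_pos hK hP β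
  rw [gibbs_apply, mul_one]
  apply div_self
  rw [hZ]
  exact_mod_cast hpos.ne'

theorem gibbs_pos {Λ : Finset (Site d)} {K : QuasiLocal d ℓ} (hK : IsSelfAdjoint K)
    (hP : Pres Λ K) (β : ℝ) (A : QuasiLocal d ℓ) :
    (gibbs d ℓ Λ K β (star A * A)).im = 0 ∧ 0 ≤ (gibbs d ℓ Λ K β (star A * A)).re := by
  obtain ⟨hpos, hZ⟩ := trL_gibbsW_pos hK hP β
  have hnum : trL d ℓ Λ (gibbsW K β * (star A * A)) =
      ((∑ c ∈ confs d ℓ Λ,
        ‖(A : SpinOperator d ℓ) ((halfW K β : SpinOperator d ℓ) (ket d ℓ c))‖ ^ 2 : ℝ) : ℂ) := by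
    rw [trL_gibbsW_mul hK hP β (star A * A), Complex.ofReal_sum]
    refine Finset.sum_congr rfl (fun c _ => ?_)
    have h1 : ((star A * A : QuasiLocal d ℓ) : SpinOperator d ℓ)
        = star (A : SpinOperator d ℓ) * (A : SpinOperator d ℓ) := rfl
    rw [h1, ContinuousLinearMap.mul_apply, ContinuousLinearMap.star_eq_adjoint,
      ContinuousLinearMap.adjoint_inner_right, inner_self_eq_norm_sq_to_K]
    norm_cast
  rw [gibbs_apply, hnum, hZ, ← Complex.ofReal_div]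
  refine ⟨Complex.ofReal_im _, ?_⟩
  rw [Complex.ofReal_re]
  exact div_nonneg (Finset.sum_nonneg (fun c _ => by positivity)) hpos.le

theorem norm_gibbs_le {Λ : Finset (Site d)} {K : QuasiLocal d ℓ} (hK : IsSelfAdjoint K)
    (hP : Pres Λ K) (β : ℝ) (A : QuasiLocal d ℓ) : ‖gibbs d ℓ Λ K β A‖ ≤ ‖A‖ := by
  obtain ⟨hpos, hZ⟩ := trL_gibbsW_pos hK hP β
  rw [gibbs_apply, trL_gibbsW_mul hK hP β A, hZ, norm_div, Complex.norm_real, Real.norm_eq_abs,
    abs_of_pos hpos, div_le_iff₀ hpos]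
  calc ‖∑ c ∈ confs d ℓ Λ, ⟪(halfW K β : SpinOperator d ℓ) (ket d ℓ c),
        (A : SpinOperator d ℓ) ((halfW K β : SpinOperator d ℓ) (ket d ℓ c))⟫_ℂ‖
      ≤ ∑ c ∈ confs d ℓ Λ, ‖⟪(halfW K β : SpinOperator d ℓ) (ket d ℓ c),
        (A : SpinOperator d ℓ) ((halfW K β : SpinOperator d ℓ) (ket d ℓ c))⟫_ℂ‖ := norm_sum_le _ _
    _ ≤ ∑ c ∈ confs d ℓ Λ, ‖A‖ * ‖(halfW K β : SpinOperator d ℓ) (ket d ℓ c)‖ ^ 2 := by
        refine Finset.sum_le_sum (fun c _ => ?_)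
        have h1 := norm_inner_le_norm (𝕜 := ℂ) ((halfW K β : SpinOperator d ℓ) (ket d ℓ c))
          ((A : SpinOperator d ℓ) ((halfW K β : SpinOperator d ℓ) (ket d ℓ c)))
        have h2 := (A : SpinOperator d ℓ).le_opNorm ((halfW K β : SpinOperator d ℓ) (ket d ℓ c))
        have h3 : ‖(A : SpinOperator d ℓ)‖ = ‖A‖ := rfl
        rw [h3] at h2
        have h4 : 0 ≤ ‖(halfW K β : SpinOperator d ℓ) (ket d ℓ c)‖ := norm_nonneg _
        nlinarith
    _ = ‖A‖ * ∑ c ∈ confs d ℓ Λ, ‖(halfW K β : SpinOperator d ℓ) (ket d ℓ c)‖ ^ 2 := by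
        rw [Finset.mul_sum]

end

end Claimed.Agent.R166
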